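import Mathlib

/-!
# P194: powers of the relative augmentation ideal
-/

open MonoidAlgebra

namespace Vale.Agent.P194

/-- product of the differences `n - 1` -/
noncomputable def pr (K : Type*) [Field K] {G : Type*} [Group G] (N : Subgroup G) (l : List N) :
    MonoidAlgebra K G := (l.map fun n : N => (single (n : G) (1 : K) - 1 : MonoidAlgebra K G)).prod

/-- the additive span of the products of `k` differences times monomials -/
noncomputable def WW (K : Type*) [Field K] {G : Type*} [Group G] (N : Subgroup G) (k : ℕ) :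
    AddSubmonoid (MonoidAlgebra K G) :=
  AddSubmonoid.closure {x | ∃ l : List N, l.length = k ∧ ∃ (g : G) (c : K),
    x = pr K N l * single g c}

variable {K : Type*} [Field K] {G : Type*} [Group G] (N : Subgroup G)

theorem pr_nil : pr K N [] = 1 := rfl

theorem pr_cons (n : N) (l : List N) :
    pr K N (n :: l) = (single (n : G) (1 : K) - 1) * pr K N l := by
  unfold pr
  rw [List.map_cons, List.prod_cons]

theorem pr_append (l l' : List N) : pr K N (l ++ l') = pr K N l * pr K N l' := by
  unfold pr
  rw [List.map_append, List.prod_append]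

theorem conj_one [hN : N.Normal] (g : G) (c : K) (n : N) :
    single g c * (single (n : G) (1 : K) - 1) =
      (single ((⟨g * n * g⁻¹, hN.conj_mem n n.2 g⟩ : N) : G) (1 : K) - 1) *
        single g c := by
  rw [mul_sub, sub_mul, mul_one, one_mul, single_mul_single, single_mul_single, mul_one, one_mul]
  congr 2
  simp

theorem conj_pr [hN : N.Normal] (g : G) (c : K) (l : List N) :
    ∃ l' : List N, l'.length = l.length ∧ single g c * pr K N l = pr K N l' * single g c := by
  induction l with
  | nil => exact ⟨[], rfl, by rw [pr_nil, mul_one, one_mul]⟩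
  | cons n l ih =>
    obtain ⟨l', hl', h⟩ := ih
    refine ⟨⟨g * n * g⁻¹, hN.conj_mem n n.2 g⟩ :: l', ?_, ?_⟩
    · simp [hl']
    · rw [pr_cons, pr_cons, ← mul_assoc, conj_one, mul_assoc, h]
      exact (mul_assoc _ _ _).symm

open scoped Pointwise in
theorem WW_mul [N.Normal] (j k : ℕ) {x y : MonoidAlgebra K G} (hx : x ∈ WW K N j)
    (hy : y ∈ WW K N k) : x * y ∈ WW K N (j + k) := by
  have h1 := AddSubmonoid.mul_mem_mul hx hy
  unfold WW at h1
  rw [AddSubmonoid.closure_mul_closure] at h1
  refine (AddSubmonoid.closure_mono ?_) h1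
  rintro z ⟨a, ⟨l, hl, g, c, rfl⟩, b, ⟨l', hl', g', c', rfl⟩, rfl⟩
  obtain ⟨l'', hl'', h⟩ := conj_pr N g c l'
  refine ⟨l ++ l'', by rw [List.length_append, hl, hl'', hl'], g * g', c * c', ?_⟩
  simp only
  rw [mul_assoc, ← mul_assoc (single g c), h, pr_append, mul_assoc, single_mul_single]
  simp only [mul_assoc]

theorem ker_aux [N.Normal] (x : MonoidAlgebra K G) :
    ∃ w ∈ WW K N 1, x = w + mapDomain (Quotient.out : G ⧸ N → G)
      (mapDomainRingHom K (QuotientGroup.mk' N) x) := by
  induction x using MonoidAlgebra.induction_linear with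
  | zero =>
    refine ⟨0, zero_mem _, ?_⟩
    rw [map_zero, mapDomain_zero, add_zero]
  | add x y hx hy =>
    obtain ⟨w, hw, h1⟩ := hx
    obtain ⟨w', hw', h2⟩ := hy
    refine ⟨w + w', add_mem hw hw', ?_⟩
    rw [map_add, mapDomain_add]
    nth_rewrite 1 [h1]
    nth_rewrite 1 [h2]
    abel
  | single g c =>
    set s : G := (Quotient.out : G ⧸ N → G) (QuotientGroup.mk' N g) with hs
    have h1 : g * s⁻¹ ∈ N := by
      have h2 : (QuotientGroup.mk' N) s = (QuotientGroup.mk' N) g :=
        Quotient.out_eq (QuotientGroup.mk' N g)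
      have h3 : (QuotientGroup.mk' N) (g * s⁻¹) = 1 := by
        rw [map_mul, map_inv, h2, mul_inv_cancel]
      exact (QuotientGroup.eq_one_iff _).mp h3
    refine ⟨pr K N [⟨g * s⁻¹, h1⟩] * single s c, AddSubmonoid.subset_closure
      ⟨_, rfl, s, c, rfl⟩, ?_⟩
    have h4 : mapDomainRingHom K (QuotientGroup.mk' N) (single g c) =
        single (QuotientGroup.mk' N g) c := by simp
    rw [h4, mapDomain_single, ← hs, pr_cons, pr_nil, mul_one, sub_mul, one_mul,
      single_mul_single, one_mul]
    simp

theorem ker_mem [N.Normal] (x : MonoidAlgebra K G)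
    (hx : mapDomainRingHom K (QuotientGroup.mk' N) x = 0) : x ∈ WW K N 1 := by
  obtain ⟨w, hw, h⟩ := ker_aux N x
  rw [hx, mapDomain_zero, add_zero] at h
  rw [h]
  exact hw

/-- idempotent matrices over the relative augmentation ideal have entries in all powers -/
theorem idem_mem [N.Normal] {n : ℕ} (e : Matrix (Fin n) (Fin n) (MonoidAlgebra K G))
    (he : e * e = e) (h1 : ∀ i j, e i j ∈ WW K N 1) (k : ℕ) (i j : Fin n) :
    e i j ∈ WW K N (k + 1) := by
  induction k generalizing i j with
  | zero => exact h1 i j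
  | succ k ih =>
    rw [← he, Matrix.mul_apply]
    exact sum_mem fun m _ => WW_mul N (k + 1) 1 (ih i m) (h1 m j)

end Vale.Agent.P194
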