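import Mathlib

/-!
# P194: residual properties of groups
-/

namespace Vale.Agent.P194

universe u

/-- residually finite-p: nontrivial elements survive in quotients of p-power order -/
def ResiduallyP (p : ℕ) (N : Type u) [Group N] : Prop :=
  ∀ n : N, n ≠ 1 → ∃ H : Subgroup N, H.Normal ∧ (∃ k : ℕ, H.index = p ^ k) ∧ n ∉ H

/-- residually finite: nontrivial elements survive in finite quotients -/
def ResiduallyFin (Q : Type u) [Group Q] : Prop :=
  ∀ q : Q, q ≠ 1 → ∃ M : Subgroup Q, M.Normal ∧ M.FiniteIndex ∧ q ∉ M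

/-- towers of extensions: `Tower p 0 G` means that `G` is residually finite, `Tower p (m + 1) G`
that `G` has a residually finite-p normal subgroup `N` with `Tower p m (G ⧸ N)` -/
def Tower (p : ℕ) : ℕ → ∀ (G : Type u) [Group G], Prop
  | 0, G, _ => ResiduallyFin G
  | m + 1, G, _ => ∃ (N : Subgroup G) (_ : N.Normal), ResiduallyP p N ∧ Tower p m (G ⧸ N)

end Vale.Agent.P194
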