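import Vale.Agent.Lib.P194.Sep

/-!
# P194: stable finiteness of extensions
-/

open MonoidAlgebra

namespace Vale.Agent.P194

universe u v

/-- a ring is stably finite if idempotent matrices that vanish under suitable maps are zero -/
theorem stab_of {R : Type*} [Ring R]
    (h : ∀ (n : ℕ) (a b : Matrix (Fin n) (Fin n) R), a * b = 1 →
      (1 - b * a) * (1 - b * a) = 1 - b * a → ∀ i j, (1 - b * a) i j = 0) :
    IsStablyFiniteRing R := by
  refine ⟨fun n => ⟨fun {a b} hab => ?_⟩⟩
  have he : (1 - b * a) * (1 - b * a) = 1 - b * a := by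
    have h1 : b * a * (b * a) = b * a := by
      rw [mul_assoc, ← mul_assoc a, hab, one_mul]
    rw [mul_sub, mul_one, sub_mul, one_mul, h1, sub_self, sub_zero]
  have h2 : 1 - b * a = 0 := by
    ext i j
    exact h n a b hab he i j
  exact (sub_eq_zero.mp h2).symm

/-- the defect vanishes in a stably finite image -/
theorem map_defect {R S : Type*} [Ring R] [Ring S] [IsStablyFiniteRing S] (f : R →+* S) {n : ℕ}
    (a b : Matrix (Fin n) (Fin n) R) (hab : a * b = 1) (i j : Fin n) :
    f ((1 - b * a) i j) = 0 := by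
  have h1 : (f.mapMatrix a) * (f.mapMatrix b) = 1 := by
    rw [← map_mul, hab, map_one]
  have h2 := mul_eq_one_symm h1
  have h3 : f.mapMatrix (1 - b * a) = 0 := by
    rw [map_sub, map_one, map_mul, h2, sub_self]
  have h4 := congrFun (congrFun h3 i) j
  exact h4

theorem ext_stab (p : ℕ) [hp : Fact p.Prime] (K : Type v) [Field K] [CharP K p] (G : Type u)
    [Group G] (N : Subgroup G) [N.Normal]
    (hN : ∀ n : N, n ≠ 1 → ∃ H : Subgroup N, H.Normal ∧ (∃ k : ℕ, H.index = p ^ k) ∧ n ∉ H)
    [IsStablyFiniteRing (MonoidAlgebra K (G ⧸ N))] :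
    IsStablyFiniteRing (MonoidAlgebra K G) := by
  classical
  refine stab_of fun n a b hab he i j => ?_
  have h1 := fun i j => ker_mem N _ (map_defect (mapDomainRingHom K (QuotientGroup.mk' N))
    a b hab i j)
  have h2 := fun k => idem_mem N (1 - b * a) he h1 k i j
  set x := (1 - b * a) i j with hx
  by_contra hne
  have h3 : x.coeff ≠ 0 := fun h => hne (coeff_eq_zero.mp h)
  obtain ⟨t, ht⟩ := Finsupp.support_nonempty_iff.mpr h3
  let F : Finset N := ((x.coeff.support.erase t).image fun g =>
    if h : g * t⁻¹ ∈ N then (⟨g * t⁻¹, h⟩ : N) else 1).erase 1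
  obtain ⟨H, hH1, hH2, hH3, hH4⟩ := sep_fin p hN hp.out.ne_zero F
    fun n hn => (Finset.mem_erase.mp hn).1
  have hPG : IsPGroup p (N ⧸ H) := by
    intro q
    obtain ⟨g, rfl⟩ := QuotientGroup.mk_surjective q
    obtain ⟨k, hk⟩ := hH3 g
    refine ⟨k, ?_⟩
    rw [← QuotientGroup.mk_pow]
    exact (QuotientGroup.eq_one_iff _).mpr hk
  obtain ⟨k, hk⟩ := nil_pp p K (Nat.card (N ⧸ H)) (N ⧸ H) le_rfl hPG
  have hk1 : ∀ l : List (N ⧸ H), l.length = k + 1 → pp K l = 0 := by
    intro l hl
    cases l with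
    | nil => simp at hl
    | cons c l =>
      rw [pp_cons, hk l (by simpa using hl), mul_zero]
  have h4 := sg_WW K N H t (k + 1) hk1 x (h2 k)
  have h5 := sg_coeff K N H t x (by
    intro g hg h hgH
    by_contra hgt
    have h6 : (⟨g * t⁻¹, h⟩ : N) ∈ F := by
      refine Finset.mem_erase.mpr ⟨?_, Finset.mem_image.mpr ⟨g, Finset.mem_erase.mpr ⟨hgt, hg⟩,
        dif_pos h⟩⟩
      intro hc
      apply hgt
      have h7 := congrArg (Subtype.val) hc
      exact mul_inv_eq_one.mp h7
    exact hH4 _ h6 hgH)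
  rw [h4] at h5
  exact (Finsupp.mem_support_iff.mp ht) h5.symm

/-- finite group algebras are stably finite -/
theorem fin_stab (K : Type v) [Field K] (P : Type u) [Group P] [Finite P] :
    IsStablyFiniteRing (MonoidAlgebra K P) := by
  have h1 : Module.Finite K (MonoidAlgebra K P) := inferInstance
  have h2 : IsNoetherianRing (MonoidAlgebra K P) := IsNoetherianRing.of_finite K _
  infer_instance

/-- a group algebra is stably finite if finite sets can be separated by normal subgroups with
stably finite quotient group algebras -/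
theorem res_stab (K : Type v) [Field K] (Q : Type u) [Group Q]
    (h : ∀ F : Finset Q, (∀ q ∈ F, q ≠ 1) → ∃ (M : Subgroup Q) (_ : M.Normal),
      IsStablyFiniteRing (MonoidAlgebra K (Q ⧸ M)) ∧ ∀ q ∈ F, q ∉ M) :
    IsStablyFiniteRing (MonoidAlgebra K Q) := by
  classical
  refine stab_of fun n a b hab _ i j => ?_
  set x := (1 - b * a) i j with hx
  by_contra hne
  have h3 : x.coeff ≠ 0 := fun h => hne (coeff_eq_zero.mp h)
  obtain ⟨t, ht⟩ := Finsupp.support_nonempty_iff.mpr h3
  obtain ⟨M, hM, hst, hsep⟩ := h ((x.coeff.support.erase t).image fun g => g * t⁻¹) (by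
    intro q hq
    obtain ⟨g, hg, rfl⟩ := Finset.mem_image.mp hq
    exact fun hc => (Finset.mem_erase.mp hg).1 (mul_inv_eq_one.mp hc))
  have h4 : mapDomainRingHom K (QuotientGroup.mk' M) x = 0 :=
    map_defect (mapDomainRingHom K (QuotientGroup.mk' M)) a b hab i j
  have h5 : (Finsupp.mapDomain (QuotientGroup.mk' M) x.coeff) (QuotientGroup.mk' M t) =
      x.coeff t := by
    unfold Finsupp.mapDomain
    rw [Finsupp.sum_apply]
    unfold Finsupp.sum
    rw [Finset.sum_eq_single t]
    · exact Finsupp.single_eq_same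
    · intro g hg hgt
      refine Finsupp.single_eq_of_ne ?_
      intro hc
      refine hsep (g * t⁻¹) (Finset.mem_image.mpr ⟨g, Finset.mem_erase.mpr ⟨hgt, hg⟩, rfl⟩) ?_
      have h6 : QuotientGroup.mk' M (g * t⁻¹) = 1 := by
        rw [map_mul, map_inv, ← hc, mul_inv_cancel]
      exact (QuotientGroup.eq_one_iff _).mp h6
    · intro ht'
      rw [Finsupp.notMem_support_iff.mp ht']
      simp
  have h6 : (mapDomainRingHom K (QuotientGroup.mk' M) x).coeff =
      Finsupp.mapDomain (QuotientGroup.mk' M) x.coeff := rfl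
  rw [← h6, h4] at h5
  exact (Finsupp.mem_support_iff.mp ht) h5.symm

/-- group algebras of residually finite groups are stably finite -/
theorem rf_stab (K : Type v) [Field K] (Q : Type u) [Group Q]
    (hQ : ∀ q : Q, q ≠ 1 → ∃ M : Subgroup Q, M.Normal ∧ M.FiniteIndex ∧ q ∉ M) :
    IsStablyFiniteRing (MonoidAlgebra K Q) := by
  classical
  refine res_stab K Q fun F hF => ?_
  have h1 : ∃ M : Subgroup Q, M.Normal ∧ M.FiniteIndex ∧ ∀ q ∈ F, q ∉ M := by
    induction F using Finset.induction_on with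
    | empty => exact ⟨⊤, inferInstance, inferInstance, by simp⟩
    | insert a F ha ih =>
      obtain ⟨H, h1, h2, h4⟩ := ih fun n hn => hF n (Finset.mem_insert_of_mem hn)
      obtain ⟨H', h1', h2', h4'⟩ := hQ a (hF a (Finset.mem_insert_self _ _))
      refine ⟨H ⊓ H', inferInstance, inferInstance, ?_⟩
      intro n hn hc
      rcases Finset.mem_insert.mp hn with rfl | hn
      · exact h4' hc.2
      · exact h4 n hn hc.1
  obtain ⟨M, hM1, hM2, hM3⟩ := h1
  exact ⟨M, hM1, fin_stab K (Q ⧸ M), hM3⟩

end Vale.Agent.P194
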