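import Vale.Agent.Lib.P194.Aug

/-!
# P194: nilpotence of the augmentation ideal of a finite p-group in characteristic p
-/

open MonoidAlgebra

namespace Vale.Agent.P194

universe u v

/-- product of the differences `h - 1` -/
noncomputable def pp (K : Type v) [Field K] {P : Type u} [Group P] (l : List P) :
    MonoidAlgebra K P := (l.map fun h : P => (single h (1 : K) - 1 : MonoidAlgebra K P)).prod

theorem pp_cons {K : Type v} [Field K] {P : Type u} [Group P] (h : P) (l : List P) :
    pp K (h :: l) = (single h (1 : K) - 1) * pp K l := by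
  unfold pp
  rw [List.map_cons, List.prod_cons]

theorem pp_append {K : Type v} [Field K] {P : Type u} [Group P] (l l' : List P) :
    pp K (l ++ l') = pp K l * pp K l' := by
  unfold pp
  rw [List.map_append, List.prod_append]

theorem map_pp {K : Type v} [Field K] {P Q : Type u} [Group P] [Group Q] (f : P →* Q)
    (l : List P) : mapDomainRingHom K f (pp K l) = pp K (l.map f) := by
  induction l with
  | nil => simp [pp]
  | cons h l ih =>
    rw [List.map_cons, pp_cons, pp_cons, map_mul, ih, map_sub, map_one]
    congr 2
    simp

theorem mem_central {K : Type v} [Field K] {P : Type u} [Group P] [Finite P] (z : P)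
    (x : MonoidAlgebra K P) (h1 : x ∈ WW K (Subgroup.zpowers z) 1) :
    ∃ y, x = (single z (1 : K) - 1) * y := by
  unfold WW at h1
  induction h1 using AddSubmonoid.closure_induction with
  | mem x hx' =>
    obtain ⟨l, hl, g, c, rfl⟩ := hx'
    obtain ⟨a, rfl⟩ := List.length_eq_one_iff.mp hl
    obtain ⟨k, hk⟩ := (mem_powers_iff_mem_zpowers.mpr a.2)
    refine ⟨(∑ i ∈ Finset.range k, (single z (1 : K)) ^ i) * single g c, ?_⟩
    rw [pr_cons, pr_nil, mul_one, ← mul_assoc, mul_geom_sum, single_pow, one_pow]
    congr 3
    exact hk.symm
  | zero => exact ⟨0, by rw [mul_zero]⟩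
  | add x y _ _ hx hy =>
    obtain ⟨a, rfl⟩ := hx
    obtain ⟨b, rfl⟩ := hy
    exact ⟨a + b, by rw [mul_add]⟩

/-- if all products of `k` differences are multiples of a central element `w`, then all products
of `k * j` differences are multiples of `w ^ j` -/
theorem pow_step {K : Type v} [Field K] {P : Type u} [Group P] (w : MonoidAlgebra K P)
    (hw : ∀ x, x * w = w * x) (k : ℕ)
    (hk : ∀ l : List P, l.length = k → ∃ y, pp K l = w * y) (j : ℕ) :
    ∀ l : List P, l.length = k * j → ∃ y, pp K l = w ^ j * y := by
  induction j with
  | zero => exact fun l _ => ⟨pp K l, by rw [pow_zero, one_mul]⟩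
  | succ j ih =>
    intro l hl
    have h1 : (l.take k).length = k := by
      rw [List.length_take, hl]
      exact min_eq_left (by rw [mul_add, mul_one]; exact Nat.le_add_left _ _)
    have h2 : (l.drop k).length = k * j := by
      rw [List.length_drop, hl, mul_add, mul_one, Nat.add_sub_cancel]
    obtain ⟨a, ha⟩ := hk _ h1
    obtain ⟨b, hb⟩ := ih _ h2
    refine ⟨a * b, ?_⟩
    have hwj : ∀ m : ℕ, ∀ x, x * w ^ m = w ^ m * x := by
      intro m x
      exact ((show Commute x w from hw x).pow_right m)
    rw [← List.take_append_drop k l, pp_append, ha, hb, pow_succ']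
    rw [mul_assoc w a, ← mul_assoc a, hwj j a]
    simp only [mul_assoc]

theorem nil_pp (p : ℕ) [hp : Fact p.Prime] (K : Type v) [Field K] [CharP K p] (n : ℕ) :
    ∀ (P : Type u) [Group P] [Finite P], Nat.card P ≤ n → IsPGroup p P →
      ∃ k, ∀ l : List P, l.length = k → pp K l = 0 := by
  induction n with
  | zero =>
    intro P _ _ hc _
    exact absurd (Nat.card_pos (α := P)) (by omega)
  | succ n ih =>
    intro P _ _ hc hP
    rcases subsingleton_or_nontrivial P with hs | hnt
    · refine ⟨1, fun l hl => ?_⟩
      obtain ⟨a, rfl⟩ := List.length_eq_one_iff.mp hl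
      have h1 : a = 1 := Subsingleton.elim a 1
      rw [pp_cons, h1, one_def, sub_self, zero_mul]
    · have hcn := hP.center_nontrivial
      obtain ⟨z, hz⟩ := exists_ne (1 : Subgroup.center P)
      have hz1 : (z : P) ≠ 1 := fun h => hz (Subtype.ext h)
      have hcomm : ∀ g : P, g * z = z * g := Subgroup.mem_center_iff.mp z.2
      have hnorm : (Subgroup.zpowers (z : P)).Normal := by
        refine ⟨fun a ha g => ?_⟩
        obtain ⟨m, rfl⟩ := Subgroup.mem_zpowers_iff.mp ha
        have h1 : g * (z : P) ^ m = (z : P) ^ m * g := (show Commute g (z : P) from hcomm g).zpow_right m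
        rw [h1, mul_inv_cancel_right]
        exact ha
      have hcard : Nat.card (P ⧸ Subgroup.zpowers (z : P)) ≤ n := by
        have h1 := Subgroup.card_eq_card_quotient_mul_card_subgroup (Subgroup.zpowers (z : P))
        have h2 : 1 < Nat.card (Subgroup.zpowers (z : P)) := by
          rw [Nat.card_zpowers]
          have h3 := orderOf_pos (z : P)
          have h4 : orderOf (z : P) ≠ 1 := fun h => hz1 (orderOf_eq_one_iff.mp h)
          omega
        have h3 := Nat.card_pos (α := P ⧸ Subgroup.zpowers (z : P))
        nlinarith
      obtain ⟨k, hk⟩ := ih (P ⧸ Subgroup.zpowers (z : P)) hcard (hP.to_quotient _)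
      obtain ⟨m, hm⟩ := hP z
      have hw : ∀ x : MonoidAlgebra K P, x * (single (z : P) (1 : K) - 1) =
          (single (z : P) (1 : K) - 1) * x := by
        intro x
        induction x using MonoidAlgebra.induction_linear with
        | zero => rw [zero_mul, mul_zero]
        | add x y hx hy => rw [add_mul, mul_add, hx, hy]
        | single g c =>
          rw [mul_sub, sub_mul, mul_one, one_mul, single_mul_single, single_mul_single,
            mul_one, one_mul, hcomm g]
      have hk2 : ∀ l : List P, l.length = k → ∃ y, pp K l = (single (z : P) (1 : K) - 1) * y := by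
        intro l hl
        refine mem_central (z : P) _ (ker_mem _ _ ?_)
        rw [map_pp]
        exact hk _ (by rw [List.length_map, hl])
      have hpow : (single (z : P) (1 : K) - 1 : MonoidAlgebra K P) ^ p ^ m = 0 := by
        have hchar : CharP (MonoidAlgebra K P) p := charP_of_injective_algebraMap
          (algebraMap K (MonoidAlgebra K P)).injective p
        have h1 : Commute (single (z : P) (1 : K)) (1 : MonoidAlgebra K P) := Commute.one_right _
        rw [sub_pow_char_pow_of_commute _ _ h1, single_pow, one_pow, one_pow, hm, one_def, sub_self]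
      refine ⟨k * p ^ m, fun l hl => ?_⟩
      obtain ⟨y, hy⟩ := pow_step _ hw k hk2 (p ^ m) l hl
      rw [hy, hpow, zero_mul]

end Vale.Agent.P194
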