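import Vale.Agent.Lib.P194.Nil

/-!
# P194: separation
-/

open MonoidAlgebra

namespace Vale.Agent.P194

universe u v

section coset

variable (K : Type v) [Field K] {G : Type u} [Group G] (N : Subgroup G) (H : Subgroup N)
  [H.Normal] (t : G)

open Classical in
/-- the image of `g` in the quotient of `N` if `g` lies in `N * t` -/
noncomputable def DD (g : G) : MonoidAlgebra K (N ⧸ H) :=
  if h : g * t⁻¹ ∈ N then single (QuotientGroup.mk' H ⟨g * t⁻¹, h⟩) 1 else 0

/-- restriction to the coset `N * t`, read in the group algebra of the quotient of `N` -/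
noncomputable def sg : MonoidAlgebra K G →+ MonoidAlgebra K (N ⧸ H) :=
  liftNC ((singleOneRingHom : K →+* MonoidAlgebra K (N ⧸ H)) : K →+ MonoidAlgebra K (N ⧸ H))
    (DD K N H t)

theorem sg_single (g : G) (c : K) :
    sg K N H t (single g c) = single 1 c * DD K N H t g := by
  unfold sg
  rw [liftNC_single]
  rfl

theorem DD_mul (n : N) (g : G) :
    DD K N H t ((n : G) * g) = single (QuotientGroup.mk' H n) 1 * DD K N H t g := by
  unfold DD
  by_cases h : g * t⁻¹ ∈ N
  · have h' : (n : G) * g * t⁻¹ ∈ N := by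
      rw [mul_assoc]
      exact N.mul_mem n.2 h
    rw [dif_pos h, dif_pos h', single_mul_single, mul_one, ← map_mul]
    congr 2
    exact Subtype.ext (mul_assoc _ _ _)
  · have h' : (n : G) * g * t⁻¹ ∉ N := by
      intro hc
      apply h
      have := N.mul_mem (N.inv_mem n.2) hc
      rwa [mul_assoc, inv_mul_cancel_left] at this
    rw [dif_neg h, dif_neg h', mul_zero]

theorem sg_mul (n : N) (y : MonoidAlgebra K G) :
    sg K N H t (single (n : G) 1 * y) = single (QuotientGroup.mk' H n) 1 * sg K N H t y := by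
  induction y using MonoidAlgebra.induction_linear with
  | zero => rw [mul_zero, map_zero, mul_zero]
  | add x y hx hy => rw [mul_add, map_add, map_add, mul_add, hx, hy]
  | single g c =>
    rw [single_mul_single, one_mul, sg_single, sg_single, DD_mul, ← mul_assoc, ← mul_assoc,
      single_mul_single, single_mul_single, mul_one, one_mul, mul_one, one_mul]

theorem sg_pr (l : List N) (y : MonoidAlgebra K G) :
    sg K N H t (pr K N l * y) = pp K (l.map (QuotientGroup.mk' H)) * sg K N H t y := by
  induction l with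
  | nil => simp [pr, pp]
  | cons n l ih =>
    rw [pr_cons, List.map_cons, pp_cons, mul_assoc, sub_mul, one_mul, map_sub, sg_mul, ih,
      mul_assoc, sub_mul, one_mul]

theorem sg_WW (k : ℕ) (hk : ∀ l : List (N ⧸ H), l.length = k → pp K l = 0)
    (x : MonoidAlgebra K G) (hx : x ∈ WW K N k) : sg K N H t x = 0 := by
  unfold WW at hx
  induction hx using AddSubmonoid.closure_induction with
  | mem x hx' =>
    obtain ⟨l, hl, g, c, rfl⟩ := hx'
    rw [sg_pr, hk _ (by rw [List.length_map, hl]), zero_mul]
  | zero => exact map_zero _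
  | add x y _ _ hx hy => rw [map_add, hx, hy, add_zero]

theorem sg_coeff (x : MonoidAlgebra K G)
    (hsep : ∀ g ∈ x.coeff.support, ∀ h : g * t⁻¹ ∈ N, (⟨g * t⁻¹, h⟩ : N) ∈ H → g = t) :
    (sg K N H t x).coeff 1 = x.coeff t := by
  classical
  have h1 : sg K N H t x = x.coeff.sum fun g c => single 1 c * DD K N H t g := rfl
  rw [h1, coeff_finsuppSum, Finsupp.sum_apply]
  unfold Finsupp.sum
  rw [Finset.sum_eq_single t]
  · unfold DD
    have h2 : t * t⁻¹ ∈ N := by
      rw [mul_inv_cancel]
      exact N.one_mem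
    have h3 : (⟨t * t⁻¹, h2⟩ : N) = 1 := Subtype.ext (mul_inv_cancel t)
    have h5 : QuotientGroup.mk' H (⟨t * t⁻¹, h2⟩ : N) = 1 := by
      rw [h3]
      exact map_one (QuotientGroup.mk' H)
    beta_reduce
    rw [dif_pos h2, single_mul_single, h5, mul_one, mul_one, coeff_single,
      Finsupp.single_eq_same]
  · intro g hg hgt
    unfold DD
    by_cases h : g * t⁻¹ ∈ N
    · beta_reduce
      rw [dif_pos h, single_mul_single, mul_one, one_mul, coeff_single]
      refine Finsupp.single_eq_of_ne ?_
      intro hc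
      exact hgt (hsep g hg h ((QuotientGroup.eq_one_iff _).mp hc.symm))
    · beta_reduce
      rw [dif_neg h, mul_zero]
      simp
  · intro ht
    rw [Finsupp.notMem_support_iff.mp ht]
    simp

end coset

/-- residually finite-p groups have separating normal subgroups for finite sets -/
theorem sep_fin (p : ℕ) {N : Type u} [Group N]
    (hN : ∀ n : N, n ≠ 1 → ∃ H : Subgroup N, H.Normal ∧ (∃ k : ℕ, H.index = p ^ k) ∧ n ∉ H)
    (hp : p ≠ 0) (F : Finset N) (hF : ∀ n ∈ F, n ≠ 1) :
    ∃ H : Subgroup N, H.Normal ∧ H.FiniteIndex ∧ (∀ g : N, ∃ k : ℕ, g ^ p ^ k ∈ H) ∧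
      ∀ n ∈ F, n ∉ H := by
  classical
  induction F using Finset.induction_on with
  | empty =>
    exact ⟨⊤, inferInstance, inferInstance, fun g => ⟨0, Subgroup.mem_top _⟩, by simp⟩
  | insert a F ha ih =>
    obtain ⟨H, h1, h2, h3, h4⟩ := ih fun n hn => hF n (Finset.mem_insert_of_mem hn)
    obtain ⟨H', h1', ⟨k, hk⟩, h4'⟩ := hN a (hF a (Finset.mem_insert_self _ _))
    have h2' : H'.FiniteIndex := ⟨by rw [hk]; exact pow_ne_zero _ hp⟩
    refine ⟨H ⊓ H', inferInstance, inferInstance, ?_, ?_⟩
    · intro g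
      obtain ⟨m, hm⟩ := h3 g
      refine ⟨m + k, ?_⟩
      constructor
      · rw [pow_add, pow_mul]
        exact H.pow_mem hm _
      · rw [add_comm, pow_add, pow_mul, ← hk]
        exact H'.pow_mem (Subgroup.pow_index_mem H' g) _
    · intro n hn hc
      rcases Finset.mem_insert.mp hn with rfl | hn
      · exact h4' hc.2
      · exact h4 n hn hc.1

end Vale.Agent.P194
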